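import Mathlib
import Vale.Agent.P150.H185.CritSemi
import Vale.Agent.P150.H185.CritIbp
import Vale.Agent.P150.H954C.Chaos

/-! High moments of `x · G x / n` around `u⁻¹`, `x` uniform, from the high moments of `tr G / n`
and the moments of a Rademacher chaos. -/

set_option linter.all false

open MeasureTheory ProbabilityTheory Filter Topology
open scoped Matrix

namespace Vale.Agent.P150.H581

open Vale.Agent.P150.Cav Vale.Agent.P150.H185.Crit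

variable {n : ℕ}

lemma sp_sq (b : Bool) : (sp b : ℂ) * (sp b : ℂ) = 1 := by
  cases b <;> simp [sp]

/-- diagonal and off-diagonal part of `x · G x / n` -/
lemma split (z : ℂ) (g : Pairs n → ℝ) (x : Cfg n) :
    (n : ℂ)⁻¹ * FF z g x = mm z g + (n : ℂ)⁻¹ * ∑ i, ∑ j, (if i = j then 0 else
      Gm z g i j * (sp (x i) : ℂ) * (sp (x j) : ℂ)) := by
  unfold mm FF Gx
  rw [← mul_add, ← Finset.sum_add_distrib]
  congr 1
  refine Finset.sum_congr rfl fun i _ => ?_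
  rw [Finset.sum_mul]
  have h1 : ∀ j : Fin n, Gm z g i j * (sp (x j) : ℂ) * (sp (x i) : ℂ) =
      (if i = j then Gm z g i i else 0) + (if i = j then 0 else
        Gm z g i j * (sp (x i) : ℂ) * (sp (x j) : ℂ)) := by
    intro j
    by_cases h : i = j
    · subst h
      rw [if_pos rfl, if_pos rfl, add_zero, mul_assoc, sp_sq, mul_one]
    · rw [if_neg h, if_neg h, zero_add]
      ring
  rw [Finset.sum_congr rfl fun j _ => h1 j, Finset.sum_add_distrib, Finset.sum_ite_eq]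
  simp

lemma pow_add_le (a b : ℝ) (ha : 0 ≤ a) (hb : 0 ≤ b) (k : ℕ) :
    (a + b) ^ k ≤ 2 ^ (k - 1) * (a ^ k + b ^ k) := add_pow_le ha hb k

/-- the pointwise bound -/
lemma avg_le (u : ℂ) (z : ℂ) (hz : 0 < z.im) (hn : 0 < n) (p : ℕ) (hp : 1 ≤ p)
    (g : Pairs n → ℝ) :
    ∑ x : Cfg n, ‖(n : ℂ)⁻¹ * FF z g x - u⁻¹‖ ^ (2 * p) ≤
      2 ^ n * (2 ^ (2 * p - 1) * (‖mm z g - u⁻¹‖ ^ (2 * p) +
        (256 * (p : ℝ) ^ 2 * ((z.im)⁻¹ * (n : ℝ)⁻¹) * -(mm z g).im) ^ p)) := by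
  have hn' : (0 : ℝ) < n := by exact_mod_cast hn
  have h1 := Vale.Agent.P150.H954C.chaos_pow (fun i j => Gm z g i j) p hp
  rw [frob_eq z hz hn g] at h1
  have h2 : ∀ x : Cfg n, ‖(n : ℂ)⁻¹ * FF z g x - u⁻¹‖ ^ (2 * p) ≤
      2 ^ (2 * p - 1) * (‖mm z g - u⁻¹‖ ^ (2 * p) + ((n : ℝ)⁻¹) ^ (2 * p) *
        ‖∑ i, ∑ j, (if i = j then 0 else
          Gm z g i j * (sp (x i) : ℂ) * (sp (x j) : ℂ))‖ ^ (2 * p)) := by
    intro x
    rw [split z g x, ← mul_pow]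
    have e : ((n : ℝ)⁻¹) * ‖∑ i, ∑ j, (if i = j then 0 else
          Gm z g i j * (sp (x i) : ℂ) * (sp (x j) : ℂ))‖ =
        ‖(n : ℂ)⁻¹ * ∑ i, ∑ j, (if i = j then 0 else
          Gm z g i j * (sp (x i) : ℂ) * (sp (x j) : ℂ))‖ := by
      rw [norm_mul, norm_inv, Complex.norm_natCast]
    rw [e]
    refine le_trans (pow_le_pow_left₀ (norm_nonneg _) ?_ _)
      (pow_add_le _ _ (norm_nonneg _) (norm_nonneg _) _)
    have e2 : ∀ a b c : ℂ, a + b - c = (a - c) + b := fun a b c => by ring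
    rw [e2]
    exact norm_add_le _ _
  refine (Finset.sum_le_sum fun x _ => h2 x).trans ?_
  rw [← Finset.mul_sum, Finset.sum_add_distrib, ← Finset.mul_sum, Finset.sum_const,
    Finset.card_univ, Fintype.card_fun, Fintype.card_bool, Fintype.card_fin, nsmul_eq_mul]
  push_cast
  have h3 := mul_le_mul_of_nonneg_left h1 (pow_nonneg (inv_nonneg.2 hn'.le) (2 * p))
  have e3 : ((n : ℝ)⁻¹) ^ (2 * p) * (2 ^ n * ((16 * (p : ℝ)) ^ (2 * p) *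
      ((n : ℝ) * ((z.im)⁻¹ * -(mm z g).im)) ^ p)) =
      2 ^ n * (256 * (p : ℝ) ^ 2 * ((z.im)⁻¹ * (n : ℝ)⁻¹) * -(mm z g).im) ^ p := by
    rw [pow_mul, pow_mul]
    have e4 : (256 * (p : ℝ) ^ 2 * ((z.im)⁻¹ * (n : ℝ)⁻¹) * -(mm z g).im) ^ p =
        (((n : ℝ)⁻¹ ^ 2) * ((16 * (p : ℝ)) ^ 2) * ((n : ℝ) * ((z.im)⁻¹ * -(mm z g).im))) ^ p := by
      congr 1
      field_simp
      ring
    rw [e4, mul_pow, mul_pow]
    generalize ((n : ℝ) * ((z.im)⁻¹ * -(mm z g).im)) = W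
    ring
  rw [e3] at h3
  have h4 : (0 : ℝ) ≤ 2 ^ (2 * p - 1) := by positivity
  calc (2 : ℝ) ^ (2 * p - 1) * (2 ^ n * ‖mm z g - u⁻¹‖ ^ (2 * p) + ((n : ℝ)⁻¹) ^ (2 * p) * _)
      ≤ 2 ^ (2 * p - 1) * (2 ^ n * ‖mm z g - u⁻¹‖ ^ (2 * p) +
        2 ^ n * (256 * (p : ℝ) ^ 2 * ((z.im)⁻¹ * (n : ℝ)⁻¹) * -(mm z g).im) ^ p) :=
        mul_le_mul_of_nonneg_left (by linarith only [h3]) h4
    _ = _ := by ring

/-- `-Im m ≤ t + |m - u⁻¹|` -/
lemma neg_im_le (u : ℂ) (hu : 0 < u.im) (hu1 : 1 ≤ ‖u‖) (z : ℂ) (g : Pairs n → ℝ) :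
    -(mm z g).im ≤ u.im + ‖mm z g - u⁻¹‖ := by
  have h3 := Complex.abs_im_le_norm (mm z g - u⁻¹)
  have h4 := neg_abs_le (mm z g - u⁻¹).im
  have h5 : (u⁻¹).im = -(u.im / ‖u‖ ^ 2) := by
    rw [Complex.inv_im, Complex.sq_norm, neg_div]
  rw [Complex.sub_im, h5] at h4
  rw [Complex.sub_im, h5] at h3
  have h6 : u.im / ‖u‖ ^ 2 ≤ u.im := div_le_self hu.le (one_le_pow₀ hu1)
  linarith only [h3, h4, h6]

lemma pow_bound (t y : ℝ) (ht : 0 < t) (hy : 0 ≤ y) (p : ℕ) :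
    (t + y) ^ p ≤ 2 ^ (p - 1) * (2 * t ^ p + y ^ (2 * p) / t ^ p) := by
  refine (pow_add_le t y ht.le hy p).trans (mul_le_mul_of_nonneg_left ?_ (by positivity))
  have htp : 0 < t ^ p := pow_pos ht p
  rcases le_total y t with h | h
  · have h1 : y ^ p ≤ t ^ p := pow_le_pow_left₀ hy h p
    have h2 : 0 ≤ y ^ (2 * p) / t ^ p := by positivity
    linarith
  · have h1 : y ^ p ≤ y ^ (2 * p) / t ^ p := by
      rw [le_div_iff₀ htp, two_mul, pow_add]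
      exact mul_le_mul_of_nonneg_left (pow_le_pow_left₀ ht.le h p) (by positivity)
    linarith

lemma two_pow_three (p : ℕ) (hp : 1 ≤ p) : (2 : ℝ) ^ (p - 1) * 3 ≤ 6 ^ p := by
  obtain ⟨q, rfl⟩ : ∃ q, p = q + 1 := ⟨p - 1, by omega⟩
  rw [Nat.add_sub_cancel, pow_succ]
  have h1 : (2 : ℝ) ^ q ≤ 6 ^ q := pow_le_pow_left₀ (by norm_num) (by norm_num) q
  have h2 : (0 : ℝ) < 6 ^ q := by positivity
  linarith

lemma fin_num (p : ℕ) (hp : 1 ≤ p) (a t I : ℝ) (ha0 : 0 < a) (ht : 0 < t) (hI0 : 0 ≤ I)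
    (hat : 48 * p * a ≤ t) (hC1 : I ≤ (82 * p * a ^ 2) ^ p) :
    2 ^ (2 * p - 1) * (I + (256 * (p : ℝ) ^ 2 * a) ^ p *
      (2 ^ (p - 1) * (2 * t ^ p + I / t ^ p))) ≤ (6144 * (p : ℝ) ^ 2 * a * t) ^ p := by
  have hp' : (1 : ℝ) ≤ p := by exact_mod_cast hp
  have htp : 0 < t ^ p := pow_pos ht p
  have hat0 : 0 < a * t := mul_pos ha0 ht
  have hpa : a * (48 * p * a) ≤ a * t := mul_le_mul_of_nonneg_left hat ha0.le
  have hA1 : 82 * p * a ^ 2 ≤ 2 * (a * t) := by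
    have e : a * (48 * p * a) = 48 * (p * a ^ 2) := by ring
    have e2 : 82 * p * a ^ 2 = 82 * (p * a ^ 2) := by ring
    have h0 : 0 ≤ p * a ^ 2 := by positivity
    rw [e] at hpa
    rw [e2]
    linarith
  have hat48 : 48 * a ≤ t := by
    refine le_trans ?_ hat
    have h0 : 48 * a * 1 ≤ 48 * a * p := mul_le_mul_of_nonneg_left hp' (by positivity)
    linarith
  have hA2 : 82 * p * a ^ 2 ≤ t ^ 2 := by
    refine hA1.trans ?_
    have h0 : 48 * a * t ≤ t * t := mul_le_mul_of_nonneg_right hat48 ht.le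
    rw [sq]
    linarith
  have hp2 : (1 : ℝ) ≤ (p : ℝ) ^ 2 := one_le_pow₀ hp'
  have hI1 : I ≤ (1536 * (p : ℝ) ^ 2 * a * t) ^ p := by
    refine hC1.trans (pow_le_pow_left₀ (by positivity) (hA1.trans ?_) p)
    have h0 : 1 * (a * t) ≤ (p : ℝ) ^ 2 * (a * t) := mul_le_mul_of_nonneg_right hp2 hat0.le
    have e : 1536 * (p : ℝ) ^ 2 * a * t = 1536 * ((p : ℝ) ^ 2 * (a * t)) := by ring
    rw [e]
    linarith
  have hI2 : I / t ^ p ≤ t ^ p := by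
    rw [div_le_iff₀ htp, ← pow_add, ← two_mul, pow_mul]
    exact hC1.trans (pow_le_pow_left₀ (by positivity) hA2 p)
  have h6 : (256 * (p : ℝ) ^ 2 * a) ^ p * (2 ^ (p - 1) * (2 * t ^ p + I / t ^ p)) ≤
      (1536 * (p : ℝ) ^ 2 * a * t) ^ p := by
    have e5 : (1536 * (p : ℝ) ^ 2 * a * t) ^ p = (256 * (p : ℝ) ^ 2 * a) ^ p * (6 * t) ^ p := by
      rw [← mul_pow]
      congr 1
      ring
    rw [e5]
    refine mul_le_mul_of_nonneg_left ?_ (by positivity)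
    calc (2 : ℝ) ^ (p - 1) * (2 * t ^ p + I / t ^ p) ≤ 2 ^ (p - 1) * (3 * t ^ p) :=
          mul_le_mul_of_nonneg_left (by linarith) (by positivity)
      _ = (2 ^ (p - 1) * 3) * t ^ p := by ring
      _ ≤ 6 ^ p * t ^ p := mul_le_mul_of_nonneg_right (two_pow_three p hp) htp.le
      _ = _ := by rw [mul_pow]
  have h8 : (2 : ℝ) ^ (2 * p - 1) * 2 = 4 ^ p := by
    rw [← pow_succ, show 2 * p - 1 + 1 = 2 * p by omega, pow_mul]
    norm_num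
  have h9 : I + (256 * (p : ℝ) ^ 2 * a) ^ p * (2 ^ (p - 1) * (2 * t ^ p + I / t ^ p)) ≤
      2 * (1536 * (p : ℝ) ^ 2 * a * t) ^ p := by linarith
  refine (mul_le_mul_of_nonneg_left h9 (by positivity)).trans (le_of_eq ?_)
  rw [← mul_assoc, h8, ← mul_pow]
  congr 1
  ring

theorem b0_moment (u : ℂ) (hu : 0 < u.im) (hu1 : 1 ≤ ‖u‖) (z : ℂ) (hz : 0 < z.im) (hn : 0 < n)
    (p : ℕ) (hp : 1 ≤ p) (hbig : 48 * p * ((z.im)⁻¹ * (n : ℝ)⁻¹) ≤ u.im)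
    (hC1 : ∫ g : Pairs n → ℝ, ‖mm z g - u⁻¹‖ ^ (2 * p) ∂(disorder n) ≤
      (82 * p * ((z.im)⁻¹ * (n : ℝ)⁻¹) ^ 2) ^ p) :
    ((2 : ℝ) ^ n)⁻¹ * ∑ x : Cfg n, ∫ g : Pairs n → ℝ,
      ‖(n : ℂ)⁻¹ * FF z g x - u⁻¹‖ ^ (2 * p) ∂(disorder n) ≤
      (6144 * (p : ℝ) ^ 2 * ((z.im)⁻¹ * (n : ℝ)⁻¹) * u.im) ^ p := by
  have hn' : (0 : ℝ) < n := by exact_mod_cast hn
  have hp' : (1 : ℝ) ≤ p := by exact_mod_cast hp
  set a : ℝ := (z.im)⁻¹ * (n : ℝ)⁻¹ with ha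
  have ha0 : 0 < a := by positivity
  set t : ℝ := u.im with ht
  have hη : 0 < (z.im)⁻¹ := by positivity
  have hmc := continuous_mm (n := n) z hz
  have hI : ∀ x : Cfg n, Integrable (fun g : Pairs n → ℝ =>
      ‖(n : ℂ)⁻¹ * FF z g x - u⁻¹‖ ^ (2 * p)) (disorder n) := by
    intro x
    refine Integrable.of_bound (((continuous_const.mul (continuous_FF z hz x)).sub
      continuous_const).norm.pow (2 * p)).measurable.aestronglyMeasurable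
      ((((z.im)⁻¹ + ‖u⁻¹‖)) ^ (2 * p)) (Eventually.of_forall fun g => ?_)
    rw [norm_pow, norm_norm]
    refine pow_le_pow_left₀ (norm_nonneg _) ((norm_sub_le _ _).trans (add_le_add ?_ le_rfl)) _
    rw [norm_mul, norm_inv, Complex.norm_natCast]
    calc (n : ℝ)⁻¹ * ‖FF z g x‖ ≤ (n : ℝ)⁻¹ * ((z.im)⁻¹ * n) :=
          mul_le_mul_of_nonneg_left (norm_FF_le z hz g x) (by positivity)
      _ = (z.im)⁻¹ := by field_simp
  have hIm : Integrable (fun g : Pairs n → ℝ => ‖mm z g - u⁻¹‖ ^ (2 * p)) (disorder n) := by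
    refine Integrable.of_bound ((hmc.sub
      continuous_const).norm.pow (2 * p)).measurable.aestronglyMeasurable
      ((((z.im)⁻¹ + ‖u⁻¹‖)) ^ (2 * p)) (Eventually.of_forall fun g => ?_)
    rw [norm_pow, norm_norm]
    exact pow_le_pow_left₀ (norm_nonneg _)
      ((norm_sub_le _ _).trans (add_le_add (norm_mm_le z hz hn g) le_rfl)) _
  set B : ℝ := 256 * (p : ℝ) ^ 2 * a with hB
  have hB0 : 0 ≤ B := by positivity
  -- pointwise
  have hpt : ∀ g : Pairs n → ℝ, ∑ x : Cfg n, ‖(n : ℂ)⁻¹ * FF z g x - u⁻¹‖ ^ (2 * p) ≤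
      2 ^ n * (2 ^ (2 * p - 1) * (‖mm z g - u⁻¹‖ ^ (2 * p) +
        B ^ p * (2 ^ (p - 1) * (2 * t ^ p + ‖mm z g - u⁻¹‖ ^ (2 * p) / t ^ p)))) := by
    intro g
    refine (avg_le u z hz hn p hp g).trans ?_
    refine mul_le_mul_of_nonneg_left (mul_le_mul_of_nonneg_left (add_le_add le_rfl ?_)
      (by positivity)) (by positivity)
    rw [mul_pow]
    refine mul_le_mul_of_nonneg_left ?_ (by positivity)
    refine (pow_le_pow_left₀ (by have := mm_im_nonpos z hz g; linarith)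
      (neg_im_le u hu hu1 z g) p).trans ?_
    exact pow_bound t _ hu (norm_nonneg _) p
  set K1 : ℝ := 2 ^ n * (2 ^ (2 * p - 1) * (1 + B ^ p * (2 ^ (p - 1) * (t ^ p)⁻¹))) with hK1
  set K0 : ℝ := 2 ^ n * (2 ^ (2 * p - 1) * (B ^ p * (2 ^ (p - 1) * (2 * t ^ p)))) with hK0
  have hpt2 : ∀ g : Pairs n → ℝ, ∑ x : Cfg n, ‖(n : ℂ)⁻¹ * FF z g x - u⁻¹‖ ^ (2 * p) ≤
      K1 * ‖mm z g - u⁻¹‖ ^ (2 * p) + K0 := by
    intro g
    refine (hpt g).trans (le_of_eq ?_)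
    rw [hK1, hK0, div_eq_mul_inv]
    ring
  have hint : ∫ g : Pairs n → ℝ, ∑ x : Cfg n, ‖(n : ℂ)⁻¹ * FF z g x - u⁻¹‖ ^ (2 * p)
      ∂(disorder n) ≤ ∫ g : Pairs n → ℝ, (K1 * ‖mm z g - u⁻¹‖ ^ (2 * p) + K0) ∂(disorder n) :=
    integral_mono (integrable_finset_sum _ fun x _ => hI x)
      ((hIm.const_mul K1).add (integrable_const K0)) hpt2
  rw [integral_finset_sum _ fun x _ => hI x, integral_add (hIm.const_mul K1) (integrable_const K0),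
    integral_const_mul, integral_const] at hint
  simp only [probReal_univ, one_smul] at hint
  set I : ℝ := ∫ g : Pairs n → ℝ, ‖mm z g - u⁻¹‖ ^ (2 * p) ∂(disorder n) with hIdef
  have hI0 : 0 ≤ I := integral_nonneg fun g => by positivity
  have h2n : (0 : ℝ) < 2 ^ n := by positivity
  have hfin := mul_le_mul_of_nonneg_left hint (inv_nonneg.2 h2n.le)
  refine hfin.trans ?_
  have e7 : ((2 : ℝ) ^ n)⁻¹ * (K1 * I + K0) =
      2 ^ (2 * p - 1) * (I + B ^ p * (2 ^ (p - 1) * (2 * t ^ p + I / t ^ p))) := by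
    rw [hK1, hK0, div_eq_mul_inv]
    field_simp
    ring
  rw [e7]
  exact fin_num p hp a t I ha0 hu hI0 hbig hC1

/-- Markov form: for a uniform `x`, `x · G x / n` is within `u.im / 10` of `u⁻¹`. -/
theorem b0_prob (u : ℂ) (hu : 0 < u.im) (hu1 : 1 ≤ ‖u‖) (z : ℂ) (hz : 0 < z.im) (hn : 0 < n)
    (p : ℕ) (hp : 1 ≤ p) (hbig : 48 * p * ((z.im)⁻¹ * (n : ℝ)⁻¹) ≤ u.im)
    (hC1 : ∫ g : Pairs n → ℝ, ‖mm z g - u⁻¹‖ ^ (2 * p) ∂(disorder n) ≤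
      (82 * p * ((z.im)⁻¹ * (n : ℝ)⁻¹) ^ 2) ^ p) :
    ((2 : ℝ) ^ n)⁻¹ * ∑ x : Cfg n, (disorder n).real {g : Pairs n → ℝ |
      u.im / 10 ≤ ‖(n : ℂ)⁻¹ * FF z g x - u⁻¹‖} ≤
      (614400 * (p : ℝ) ^ 2 * ((z.im)⁻¹ * (n : ℝ)⁻¹) / u.im) ^ p := by
  have hn' : (0 : ℝ) < n := by exact_mod_cast hn
  have h1 := b0_moment u hu hu1 z hz hn p hp hbig hC1
  set a : ℝ := (z.im)⁻¹ * (n : ℝ)⁻¹ with ha
  have ha0 : 0 < a := by positivity
  set t : ℝ := u.im with ht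
  have hI : ∀ x : Cfg n, Integrable (fun g : Pairs n → ℝ =>
      ‖(n : ℂ)⁻¹ * FF z g x - u⁻¹‖ ^ (2 * p)) (disorder n) := by
    intro x
    refine Integrable.of_bound (((continuous_const.mul (continuous_FF z hz x)).sub
      continuous_const).norm.pow (2 * p)).measurable.aestronglyMeasurable
      ((((z.im)⁻¹ + ‖u⁻¹‖)) ^ (2 * p)) (Eventually.of_forall fun g => ?_)
    rw [norm_pow, norm_norm]
    refine pow_le_pow_left₀ (norm_nonneg _) ((norm_sub_le _ _).trans (add_le_add ?_ le_rfl)) _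
    rw [norm_mul, norm_inv, Complex.norm_natCast]
    calc (n : ℝ)⁻¹ * ‖FF z g x‖ ≤ (n : ℝ)⁻¹ * ((z.im)⁻¹ * n) :=
          mul_le_mul_of_nonneg_left (norm_FF_le z hz g x) (by positivity)
      _ = (z.im)⁻¹ := by field_simp
  have hT : 0 < (t / 10) ^ (2 * p) := by positivity
  have h2 : ∀ x : Cfg n, (disorder n).real {g : Pairs n → ℝ |
      t / 10 ≤ ‖(n : ℂ)⁻¹ * FF z g x - u⁻¹‖} ≤ ((t / 10) ^ (2 * p))⁻¹ *
      ∫ g : Pairs n → ℝ, ‖(n : ℂ)⁻¹ * FF z g x - u⁻¹‖ ^ (2 * p) ∂(disorder n) := by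
    intro x
    have h0 : (0 : (Pairs n → ℝ) → ℝ) ≤ᵐ[disorder n] fun g : Pairs n → ℝ =>
        ‖(n : ℂ)⁻¹ * FF z g x - u⁻¹‖ ^ (2 * p) :=
      Eventually.of_forall fun g => pow_nonneg (norm_nonneg _) _
    have h3 := mul_meas_ge_le_integral_of_nonneg h0 (hI x) ((t / 10) ^ (2 * p))
    rw [← div_eq_inv_mul, le_div_iff₀ hT, mul_comm]
    have h4 : (disorder n).real {g : Pairs n → ℝ | t / 10 ≤ ‖(n : ℂ)⁻¹ * FF z g x - u⁻¹‖} ≤
        (disorder n).real {g : Pairs n → ℝ | (t / 10) ^ (2 * p) ≤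
          ‖(n : ℂ)⁻¹ * FF z g x - u⁻¹‖ ^ (2 * p)} := by
      refine measureReal_mono ?_ (measure_ne_top _ _)
      intro g hg
      have hg' : t / 10 ≤ ‖(n : ℂ)⁻¹ * FF z g x - u⁻¹‖ := hg
      exact pow_le_pow_left₀ (div_nonneg hu.le (by norm_num)) hg' (2 * p)
    exact le_trans (mul_le_mul_of_nonneg_left h4 hT.le) h3
  calc ((2 : ℝ) ^ n)⁻¹ * ∑ x : Cfg n, (disorder n).real {g : Pairs n → ℝ |
      t / 10 ≤ ‖(n : ℂ)⁻¹ * FF z g x - u⁻¹‖}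
      ≤ ((2 : ℝ) ^ n)⁻¹ * ∑ x : Cfg n, ((t / 10) ^ (2 * p))⁻¹ *
        ∫ g : Pairs n → ℝ, ‖(n : ℂ)⁻¹ * FF z g x - u⁻¹‖ ^ (2 * p) ∂(disorder n) :=
        mul_le_mul_of_nonneg_left (Finset.sum_le_sum fun x _ => h2 x) (by positivity)
    _ = ((t / 10) ^ (2 * p))⁻¹ * (((2 : ℝ) ^ n)⁻¹ * ∑ x : Cfg n,
        ∫ g : Pairs n → ℝ, ‖(n : ℂ)⁻¹ * FF z g x - u⁻¹‖ ^ (2 * p) ∂(disorder n)) := by
        rw [← Finset.mul_sum]; ring
    _ ≤ ((t / 10) ^ (2 * p))⁻¹ * (6144 * (p : ℝ) ^ 2 * a * t) ^ p :=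
        mul_le_mul_of_nonneg_left h1 (by positivity)
    _ = _ := by
        rw [pow_mul, ← inv_pow, ← mul_pow]
        congr 1
        field_simp
        ring

end Vale.Agent.P150.H581
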