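import Mathlib
import Vale.Agent.P150.H185.CritDet

/-! Stationary displacement of linear statistics and typical starts (deterministic part). -/

open MeasureTheory ProbabilityTheory Filter Topology

namespace Vale.Agent.P150.H581

open Vale.Agent.P150.Cav Vale.Agent.P150.H185.Crit

variable {n : ℕ} {J : Fin n → Fin n → ℝ} (b : Fin n → ℝ)

/-- the Dirichlet form is nonincreasing along the semigroup -/
theorem dir_Pt_le (hJ : ∀ i j, J i j = J j i) (f : Cfg n → ℝ) {t : ℝ} (ht : 0 ≤ t) :
    dir J b (Semi.Pt J b t f) (Semi.Pt J b t f) ≤ dir J b f f := by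
  set u : ℝ → Cfg n → ℝ := fun s => Semi.Pt J b s f with hu0
  have hu : ∀ s x, HasDerivAt (fun s => u s x) (gen J b (u s) x) s :=
    fun s x => Semi.Pt_deriv' b f s x
  have hg : ∀ s x, HasDerivAt (fun s => gen J b (u s) x) (gen J b (gen J b (u s)) x) s := by
    intro s x
    have e : (fun s => gen J b (u s) x) = fun s => ∑ y, genMat J b x y * u s y := by
      funext s
      exact (Semi.genMat_mul J b (u s) x).symm
    rw [e, ← Semi.genMat_mul J b (gen J b (u s)) x]
    apply HasDerivAt.fun_sum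
    intro y _
    exact (hu s y).const_mul _
  have hd : ∀ s, HasDerivAt (fun s => dir J b (u s) (u s))
      (-(2 * ex J b (fun x => gen J b (u s) x ^ 2))) s := by
    intro s
    have h1 : HasDerivAt (fun s => ex J b (fun x => u s x * gen J b (u s) x))
        (ex J b (fun x => gen J b (u s) x * gen J b (u s) x +
          u s x * gen J b (gen J b (u s)) x)) s := by
      apply Semi.ex_deriv b (fun s x => u s x * gen J b (u s) x)
      intro x
      exact (hu s x).mul (hg s x)
    have h2 : ex J b (fun x => u s x * gen J b (gen J b (u s)) x) =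
        ex J b (fun x => gen J b (u s) x * gen J b (u s) x) := by
      have h3 := Semi.dir_symm b hJ (u s) (gen J b (u s))
      unfold dir at h3
      have h4 := neg_injective h3
      exact h4
    have h5 : ex J b (fun x => gen J b (u s) x * gen J b (u s) x +
          u s x * gen J b (gen J b (u s)) x) = 2 * ex J b (fun x => gen J b (u s) x ^ 2) := by
      rw [Semi.ex_add (J := J) b (fun x => gen J b (u s) x * gen J b (u s) x)
        (fun x => u s x * gen J b (gen J b (u s)) x), h2]
      have : (fun x => gen J b (u s) x * gen J b (u s) x) = fun x => gen J b (u s) x ^ 2 := by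
        funext x; ring
      rw [this]; ring
    rw [h5] at h1
    exact h1.neg
  have hanti : Antitone (fun s => dir J b (u s) (u s)) := by
    apply antitone_of_deriv_nonpos
    · intro s; exact (hd s).differentiableAt
    · intro s
      rw [(hd s).deriv]
      have := Semi.ex_nonneg (J := J) b (f := fun x => gen J b (u s) x ^ 2)
        (fun x => sq_nonneg _)
      linarith
  have h0 := hanti ht
  have h1 : u 0 = f := by
    funext x
    exact Semi.Pt_zero b f x
  simp only [h1] at h0
  exact h0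

/-- `E f² - E f P_s f ≤ s dir f` -/
theorem corr_ge (hJ : ∀ i j, J i j = J j i) (f : Cfg n → ℝ) {s : ℝ} (hs : 0 ≤ s) :
    ex J b (fun x => f x ^ 2) - ex J b (fun x => f x * Semi.Pt J b s f x) ≤ s * dir J b f f := by
  set D := dir J b f f with hD
  have hD0 : 0 ≤ D := Semi.dir_self_nonneg b hJ f
  set F : ℝ → ℝ := fun t => ex J b (fun x => f x * Semi.Pt J b t f x) + t * D with hF
  have hd : ∀ t, HasDerivAt F (-(dir J b f (Semi.Pt J b t f)) + D) t := by
    intro t
    have h1 : HasDerivAt (fun t => ex J b (fun x => f x * Semi.Pt J b t f x))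
        (ex J b (fun x => f x * gen J b (Semi.Pt J b t f) x)) t := by
      apply Semi.ex_deriv b (fun t x => f x * Semi.Pt J b t f x)
      intro x
      exact (Semi.Pt_deriv' b f t x).const_mul _
    have h2 : HasDerivAt (fun t : ℝ => t * D) (1 * D) t := (hasDerivAt_id t).mul_const D
    rw [one_mul] at h2
    have h3 := h1.add h2
    have e : ex J b (fun x => f x * gen J b (Semi.Pt J b t f) x) =
        -(dir J b f (Semi.Pt J b t f)) := by
      unfold dir; ring
    rw [e] at h3
    exact h3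
  have hmono : MonotoneOn F (Set.Ici 0) := by
    apply monotoneOn_of_deriv_nonneg (convex_Ici 0)
    · exact fun t _ => (hd t).continuousAt.continuousWithinAt
    · exact fun t _ => (hd t).differentiableAt.differentiableWithinAt
    · intro t ht
      rw [interior_Ici] at ht
      rw [(hd t).deriv]
      have ht0 : (0 : ℝ) ≤ t := le_of_lt ht
      have h1 := Poinc.dir_cs J b hJ f (Semi.Pt J b t f)
      have h2 := dir_Pt_le b hJ f ht0
      have h3 : dir J b f (Semi.Pt J b t f) ^ 2 ≤ D ^ 2 := by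
        calc _ ≤ D * dir J b (Semi.Pt J b t f) (Semi.Pt J b t f) := h1
          _ ≤ D * D := mul_le_mul_of_nonneg_left h2 hD0
          _ = D ^ 2 := by ring
      have h4 := (abs_le_of_sq_le_sq' h3 hD0).2
      linarith
  have h0 := hmono (Set.mem_Ici.2 le_rfl) (Set.mem_Ici.2 hs) hs
  simp only [hF, zero_mul, add_zero] at h0
  have e0 : (fun x => f x * Semi.Pt J b 0 f x) = fun x => f x ^ 2 := by
    funext x
    rw [Semi.Pt_zero]; ring
  rw [e0] at h0
  linarith only [h0]

/-- (S1) stationary mean square displacement -/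
theorem disp (hJ : ∀ i j, J i j = J j i) (f : Cfg n → ℝ) {s : ℝ} (hs : 0 ≤ s) :
    ∑ x, gibbs J b x * ∑ y, kernel J b s x y * (f y - f x) ^ 2 ≤ 2 * s * dir J b f f := by
  have h1 := corr_ge b hJ f hs
  have h2 := Semi.ex_Pt b hJ s (fun x => f x ^ 2)
  have e : ∑ x, gibbs J b x * ∑ y, kernel J b s x y * (f y - f x) ^ 2 =
      ex J b (Semi.Pt J b s (fun x => f x ^ 2)) - 2 * ex J b (fun x => f x * Semi.Pt J b s f x) +
        ex J b (fun x => f x ^ 2) := by
    unfold ex
    rw [Finset.mul_sum, ← Finset.sum_sub_distrib, ← Finset.sum_add_distrib]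
    refine Finset.sum_congr rfl fun x _ => ?_
    have e1 : ∑ y, kernel J b s x y * (f y - f x) ^ 2 =
        Semi.Pt J b s (fun x => f x ^ 2) x - 2 * (f x * Semi.Pt J b s f x) + f x ^ 2 := by
      have hr := Semi.kernel_row J b s x
      have h5 : f x ^ 2 = ∑ y, kernel J b s x y * f x ^ 2 := by
        rw [← Finset.sum_mul, hr, one_mul]
      have h6 : Semi.Pt J b s (fun x => f x ^ 2) x - 2 * (f x * Semi.Pt J b s f x) + f x ^ 2 =
          ∑ y, kernel J b s x y * f y ^ 2 - 2 * (f x * ∑ y, kernel J b s x y * f y) +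
            ∑ y, kernel J b s x y * f x ^ 2 := by
        rw [← h5]; rfl
      rw [h6, Finset.mul_sum, Finset.mul_sum, ← Finset.sum_sub_distrib, ← Finset.sum_add_distrib]
      refine Finset.sum_congr rfl fun y _ => ?_
      ring
    rw [e1]; ring
  rw [e, h2]
  linarith only [h1]

/-- (S2) for vectors of complex linear statistics -/
theorem disp_vec (hJ : ∀ i j, J i j = J j i) (G : Fin n → Fin n → ℂ) {s : ℝ} (hs : 0 ≤ s) :
    ∑ x, gibbs J b x * ∑ y, kernel J b s x y *
      ∑ i, ‖(∑ l, G i l * (sp (y l) : ℂ)) - ∑ l, G i l * (sp (x l) : ℂ)‖ ^ 2 ≤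
      2 * s * ∑ i, ∑ l, ‖G i l‖ ^ 2 := by
  have key : ∀ v : Fin n → ℝ, ∑ x, gibbs J b x * ∑ y, kernel J b s x y *
      ((∑ l, v l * sp (y l)) - ∑ l, v l * sp (x l)) ^ 2 ≤ 2 * s * ∑ l, v l ^ 2 := by
    intro v
    refine (disp b hJ (fun x => ∑ l, v l * sp (x l)) hs).trans ?_
    exact mul_le_mul_of_nonneg_left (Poinc.dir_lin_le J b hJ v) (by positivity)
  have e1 : ∀ (w : Fin n → ℂ) (x y : Cfg n),
      ‖(∑ l, w l * (sp (y l) : ℂ)) - ∑ l, w l * (sp (x l) : ℂ)‖ ^ 2 =
      ((∑ l, (w l).re * sp (y l)) - ∑ l, (w l).re * sp (x l)) ^ 2 +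
      ((∑ l, (w l).im * sp (y l)) - ∑ l, (w l).im * sp (x l)) ^ 2 := by
    intro w x y
    rw [Complex.sq_norm, Complex.normSq_apply]
    simp only [Complex.sub_re, Complex.sub_im, Complex.re_sum, Complex.im_sum, Complex.mul_re,
      Complex.mul_im, Complex.ofReal_re, Complex.ofReal_im, mul_zero, sub_zero, zero_add]
    ring
  have e2 : ∀ w : Fin n → ℂ, ∑ l, ‖w l‖ ^ 2 = ∑ l, (w l).re ^ 2 + ∑ l, (w l).im ^ 2 := by
    intro w
    rw [← Finset.sum_add_distrib]
    refine Finset.sum_congr rfl fun l _ => ?_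
    rw [Complex.sq_norm, Complex.normSq_apply]; ring
  have key2 : ∀ w : Fin n → ℂ, ∑ x, gibbs J b x * ∑ y, kernel J b s x y *
      ‖(∑ l, w l * (sp (y l) : ℂ)) - ∑ l, w l * (sp (x l) : ℂ)‖ ^ 2 ≤ 2 * s * ∑ l, ‖w l‖ ^ 2 := by
    intro w
    simp only [e1]
    rw [e2, mul_add]
    have h := add_le_add (key fun l => (w l).re) (key fun l => (w l).im)
    refine le_trans (le_of_eq ?_) h
    rw [← Finset.sum_add_distrib]
    refine Finset.sum_congr rfl fun x _ => ?_
    rw [← mul_add, ← Finset.sum_add_distrib]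
    congr 1
    refine Finset.sum_congr rfl fun y _ => ?_
    ring
  have h := Finset.sum_le_sum fun (i : Fin n) (_ : i ∈ Finset.univ) => key2 (G i)
  rw [← Finset.mul_sum] at h
  refine le_trans (le_of_eq ?_) h
  rw [Finset.sum_comm]
  refine Finset.sum_congr rfl fun x _ => ?_
  rw [← Finset.mul_sum]
  congr 1
  rw [Finset.sum_comm]
  refine Finset.sum_congr rfl fun y _ => ?_
  rw [Finset.mul_sum]

/-- lower bound of the total variation distance by one event -/
theorem tv_ge_event (s : ℝ) (x : Cfg n) (E : Finset (Cfg n)) :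
    ∑ y ∈ E, kernel J b s x y - ∑ y ∈ E, gibbs J b y ≤ tvDist J b s x := by
  classical
  have h0 : ∑ y, (kernel J b s x y - gibbs J b y) = 0 := by
    rw [Finset.sum_sub_distrib, Semi.kernel_row, Poinc.gibbs_sum]; ring
  have h1 : ∑ y ∈ E, (kernel J b s x y - gibbs J b y) +
      ∑ y ∈ Eᶜ, (kernel J b s x y - gibbs J b y) = 0 := by
    rw [Finset.sum_add_sum_compl, h0]
  have h2 : ∑ y ∈ E, (kernel J b s x y - gibbs J b y) ≤
      ∑ y ∈ E, |kernel J b s x y - gibbs J b y| := Finset.sum_le_sum fun y _ => le_abs_self _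
  have h3 : -∑ y ∈ Eᶜ, (kernel J b s x y - gibbs J b y) ≤
      ∑ y ∈ Eᶜ, |kernel J b s x y - gibbs J b y| := by
    rw [← Finset.sum_neg_distrib]
    exact Finset.sum_le_sum fun y _ => neg_le_abs _
  have h4 : ∑ y ∈ E, |kernel J b s x y - gibbs J b y| +
      ∑ y ∈ Eᶜ, |kernel J b s x y - gibbs J b y| = ∑ y, |kernel J b s x y - gibbs J b y| :=
    Finset.sum_add_sum_compl _ _
  unfold tvDist
  rw [← Finset.sum_sub_distrib]
  linarith only [h1, h2, h3, h4]

/-- real part of the Hermitian product -/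
noncomputable def rip (u v : Fin n → ℂ) : ℝ := ∑ i, ((u i).re * (v i).re + (u i).im * (v i).im)

lemma nsq_sub (u v : Fin n → ℂ) :
    nsq (fun i => u i - v i) = nsq u + nsq v - 2 * rip u v := by
  unfold nsq rip
  rw [Finset.mul_sum, ← Finset.sum_add_distrib, ← Finset.sum_sub_distrib]
  refine Finset.sum_congr rfl fun i _ => ?_
  simp only [Complex.sq_norm, Complex.normSq_apply, Complex.sub_re, Complex.sub_im]
  ring

/-- the global spin flip -/
def neg (x : Cfg n) : Cfg n := fun i => !(x i)

lemma neg_neg' (x : Cfg n) : neg (neg x) = x := by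
  funext i
  simp [neg]

lemma sum_neg' (F : Cfg n → ℝ) : ∑ x, F (neg x) = ∑ x, F x :=
  Equiv.sum_comp (Function.Involutive.toPerm (neg (n := n)) neg_neg') F

lemma Gx_eq (z : ℂ) (g : Pairs n → ℝ) (x : Cfg n) (i : Fin n) :
    Gx z g x i = ∑ l, Gm z g i l * (sp (x l) : ℂ) := rfl

lemma Gx_neg (z : ℂ) (g : Pairs n → ℝ) (x : Cfg n) (i : Fin n) :
    Gx z g (neg x) i = -Gx z g x i := by
  rw [Gx_eq, Gx_eq, ← Finset.sum_neg_distrib]
  refine Finset.sum_congr rfl fun l _ => ?_
  have : sp (neg x l) = -sp (x l) := Poinc.sp_not (x l)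
  rw [this]
  push_cast
  ring

/-- (S3) the start `x` is remembered as long as the displacement is small -/
theorem tv_ge (z : ℂ) (β : ℝ) (g : Pairs n → ℝ) {s : ℝ} (hs : 0 ≤ s) (x : Cfg n)
    (hR : 0 < nsq (Gx z g x)) :
    1 / 2 - (∑ y, kernel (skJ β g) (fun _ => 0) s x y *
      nsq (fun i => Gx z g y i - Gx z g x i)) / nsq (Gx z g x) ≤
      tvDist (skJ β g) (fun _ => 0) s x := by
  classical
  set J := skJ β g with hJ
  set R := nsq (Gx z g x) with hRdef
  set E : Finset (Cfg n) := Finset.univ.filter fun y => 0 < rip (Gx z g y) (Gx z g x) with hE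
  have h1 := tv_ge_event (J := J) (fun _ => 0) s x E
  -- the event has Gibbs mass at most one half
  have hneg : ∀ y, rip (Gx z g (neg y)) (Gx z g x) = -rip (Gx z g y) (Gx z g x) := by
    intro y
    unfold rip
    rw [← Finset.sum_neg_distrib]
    refine Finset.sum_congr rfl fun i _ => ?_
    rw [Gx_neg]
    simp only [Complex.neg_re, Complex.neg_im]
    ring
  have hmass : ∑ y ∈ E, gibbs J (fun _ => 0) y ≤ 1 / 2 := by
    have e1 : ∑ y ∈ E, gibbs J (fun _ => 0) y =
        ∑ y, if 0 < rip (Gx z g y) (Gx z g x) then gibbs J (fun _ => 0) y else 0 := by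
      rw [hE, Finset.sum_filter]
    have e2 : ∑ y ∈ E, gibbs J (fun _ => 0) y =
        ∑ y, if rip (Gx z g y) (Gx z g x) < 0 then gibbs J (fun _ => 0) y else 0 := by
      rw [e1, ← sum_neg']
      refine Finset.sum_congr rfl fun y _ => ?_
      rw [hneg, show gibbs J (fun _ => 0) (neg y) = gibbs J (fun _ => 0) y from
        Poinc.gibbs_neg J y]
      simp only [Left.neg_pos_iff]
    have h2 : ∑ y ∈ E, gibbs J (fun _ => 0) y + ∑ y ∈ E, gibbs J (fun _ => 0) y ≤ 1 := by
      nth_rewrite 1 [e1]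
      rw [e2, ← Finset.sum_add_distrib, ← Poinc.gibbs_sum J (fun _ => 0)]
      refine Finset.sum_le_sum fun y _ => ?_
      have hp := (Poinc.gibbs_pos J (fun _ => 0) y).le
      by_cases ha : 0 < rip (Gx z g y) (Gx z g x)
      · rw [if_pos ha, if_neg (not_lt.2 ha.le), add_zero]
      · rw [if_neg ha, zero_add]
        split_ifs
        · exact le_rfl
        · exact hp
    linarith only [h2]
  -- the chain leaves the event with small probability
  have hleave : ∑ y ∈ Eᶜ, kernel J (fun _ => 0) s x y ≤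
      (∑ y, kernel J (fun _ => 0) s x y * nsq (fun i => Gx z g y i - Gx z g x i)) / R := by
    rw [le_div_iff₀ hR, Finset.sum_mul]
    refine le_trans ?_ (Finset.sum_le_univ_sum_of_nonneg (s := Eᶜ) fun y => ?_)
    · refine Finset.sum_le_sum fun y hy => ?_
      refine mul_le_mul_of_nonneg_left ?_ (Semi.kernel_nonneg J (fun _ => 0) hs x y)
      rw [nsq_sub]
      have h3 : rip (Gx z g y) (Gx z g x) ≤ 0 := by
        have := Finset.mem_compl.1 hy
        rw [hE, Finset.mem_filter] at this
        push Not at this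
        exact this (Finset.mem_univ y)
      have h4 := nsq_nonneg (Gx z g y)
      linarith only [h3, h4]
    · exact mul_nonneg (Semi.kernel_nonneg J (fun _ => 0) hs x y) (nsq_nonneg _)
  have hsum : ∑ y ∈ E, kernel J (fun _ => 0) s x y + ∑ y ∈ Eᶜ, kernel J (fun _ => 0) s x y = 1 := by
    rw [Finset.sum_add_sum_compl, Semi.kernel_row]
  linarith only [h1, hmass, hleave, hsum]

/-- (S4) typical starts, deterministic part -/
theorem typical {τ : ℝ} (hτ : 0 < τ) (hn : 0 < n) (z : ℂ) (hz : 0 < z.im) (β : ℝ)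
    (g : Pairs n → ℝ) (S : Cfg n → ℝ) (hS0 : ∀ x, 0 ≤ S x)
    (hS1 : ∀ x, -((n : ℂ)⁻¹ * FF z g x).im < 1 / (6 * τ) → 1 ≤ S x) {ε : ℝ}
    (hS : ∑ x, pw β g x * S x ≤ ε) (hm : -(mm z g).im ≤ 8 * τ) {s η : ℝ} (hs : 0 ≤ s)
    (hη : 0 < η) :
    ∑ x : Cfg n, gibbs (skJ β g) (fun _ => 0) x *
      (if tvDist (skJ β g) (fun _ => 0) s x < 1 / 2 - η then 1 else 0) ≤
      ε + 96 * s * τ ^ 2 / η := by
  set J := skJ β g with hJ
  have hJs := skJ_symm β g
  have hn' : (0 : ℝ) < n := by exact_mod_cast hn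
  set D : Cfg n → ℝ := fun x => ∑ y, kernel J (fun _ => 0) s x y *
    nsq (fun i => Gx z g y i - Gx z g x i) with hD
  have hD0 : ∀ x, 0 ≤ D x := fun x => Finset.sum_nonneg fun y _ =>
    mul_nonneg (Semi.kernel_nonneg J (fun _ => 0) hs x y) (nsq_nonneg _)
  set a : ℝ := 6 * τ * z.im / (n * η) with ha
  have ha0 : 0 < a := by positivity
  have hpt : ∀ x : Cfg n, (if tvDist J (fun _ => 0) s x < 1 / 2 - η then (1 : ℝ) else 0) ≤
      S x + a * D x := by
    intro x
    have h0 : 0 ≤ S x + a * D x := add_nonneg (hS0 x) (mul_nonneg ha0.le (hD0 x))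
    split_ifs with htv
    · by_cases hx : -((n : ℂ)⁻¹ * FF z g x).im < 1 / (6 * τ)
      · have := hS1 x hx
        have h2 := mul_nonneg ha0.le (hD0 x)
        linarith only [this, h2]
      · push Not at hx
        have h3 : ((n : ℂ)⁻¹) = (((n : ℝ)⁻¹ : ℝ) : ℂ) := by push_cast; rfl
        rw [h3, Complex.im_ofReal_mul] at hx
        have h4 : -(FF z g x).im = z.im * nsq (Gx z g x) := im_Gx z hz g x
        have h5 : (n : ℝ) / (6 * τ) ≤ z.im * nsq (Gx z g x) := by
          rw [← h4]
          have h6 : -((n : ℝ)⁻¹ * (FF z g x).im) = (n : ℝ)⁻¹ * -(FF z g x).im := by ring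
          rw [h6, inv_mul_eq_div, le_div_iff₀ hn'] at hx
          refine le_trans (le_of_eq ?_) hx
          ring
        have h7 : 0 < z.im * nsq (Gx z g x) := lt_of_lt_of_le (by positivity) h5
        have hR : 0 < nsq (Gx z g x) := (mul_pos_iff_of_pos_left hz).1 h7
        have h8 := tv_ge z β g hs x hR
        have h9 : η < D x / nsq (Gx z g x) := by
          have : 1 / 2 - D x / nsq (Gx z g x) < 1 / 2 - η := lt_of_le_of_lt h8 htv
          linarith only [this]
        rw [lt_div_iff₀ hR] at h9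
        have h10 : 1 ≤ a * D x := by
          have h11 : η * (n / (6 * τ)) ≤ z.im * D x := by
            calc η * (n / (6 * τ)) ≤ η * (z.im * nsq (Gx z g x)) :=
                  mul_le_mul_of_nonneg_left h5 hη.le
              _ = z.im * (η * nsq (Gx z g x)) := by ring
              _ ≤ z.im * D x := mul_le_mul_of_nonneg_left h9.le hz.le
          have e : a * D x = z.im * D x / (η * (n / (6 * τ))) := by
            rw [ha]; field_simp
          rw [e, le_div_iff₀ (by positivity), one_mul]
          exact h11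
        have h12 := hS0 x
        linarith only [h10, h12]
    · exact h0
  have hdisp := disp_vec (J := J) (fun _ => 0) hJs (Gm z g) hs
  have hfr := frob_eq z hz hn g
  have hD1 : ∑ x, gibbs J (fun _ => 0) x * D x ≤ 2 * s * (n * ((z.im)⁻¹ * (8 * τ))) := by
    refine le_trans hdisp ?_
    rw [hfr]
    refine mul_le_mul_of_nonneg_left ?_ (by positivity)
    refine mul_le_mul_of_nonneg_left ?_ hn'.le
    exact mul_le_mul_of_nonneg_left hm (by positivity)
  calc ∑ x : Cfg n, gibbs J (fun _ => 0) x *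
        (if tvDist J (fun _ => 0) s x < 1 / 2 - η then 1 else 0)
      ≤ ∑ x : Cfg n, gibbs J (fun _ => 0) x * (S x + a * D x) :=
        Finset.sum_le_sum fun x _ =>
          mul_le_mul_of_nonneg_left (hpt x) (Poinc.gibbs_pos J (fun _ => 0) x).le
    _ = ∑ x : Cfg n, pw β g x * S x + a * ∑ x, gibbs J (fun _ => 0) x * D x := by
        rw [Finset.mul_sum, ← Finset.sum_add_distrib]
        refine Finset.sum_congr rfl fun x _ => ?_
        have : pw β g x = gibbs J (fun _ => 0) x := rfl
        rw [this]; ring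
    _ ≤ ε + a * (2 * s * (n * ((z.im)⁻¹ * (8 * τ)))) :=
        add_le_add hS (mul_le_mul_of_nonneg_left hD1 ha0.le)
    _ = ε + 96 * s * τ ^ 2 / η := by
        rw [ha]
        field_simp
        ring

end Vale.Agent.P150.H581
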